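import Vale.Agent.P265.Bdl.B1

open Set Manifold Vale.Agent.P265.Loc
open scoped ContDiff

set_option maxSynthPendingDepth 3

namespace Vale.Agent.Results.P265.Localized

/-- The stable Morse form of the Arnold conjecture for Hamiltonians localized in flat convex
domains, and for all Hamiltonians joined to them by nondegenerate families. -/
theorem result {V : Type*} [NormedAddCommGroup V] [NormedSpace ℝ V] [FiniteDimensional ℝ V]
    {M : Type*} [TopologicalSpace M] [T2Space M] [CompactSpace M] [ConnectedSpace M]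
    [ChartedSpace V M] [IsManifold 𝓘(ℝ, V) ∞ M]
    (om : ℝ → FormField V M) (hom : ∀ s ∈ Icc (0 : ℝ) 1, IsSymplectic (om s))
    {ι : Type*} [Finite ι] (b : V → V → ℝ) (D : ι → Set V) (Λ : ι → AddSubgroup V)
    (p : ι → V → M) (hp : ∀ i, IsFlatChart (om 0) b (D i) (Λ i) (p i))
    (hdisj : ∀ i j, i ≠ j → Disjoint (p i '' D i) (p j '' D j)) {r : ℝ} (hr : 0 < r) :
    ∃ δ > 0, ∀ (K : M → ℝ) (H : ℝ → ℝ → M → ℝ) (φ : ℝ → ℝ → M → M),
      ContMDiff 𝓘(ℝ, V) 𝓘(ℝ, ℝ) ∞ K →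
      (∀ s ∈ Icc (0 : ℝ) 1, IsHamiltonianFlow (om s) (H s) (φ s) ∧ NondegFixedPoints V (φ s 1)) →
      ContMDiff (𝓘(ℝ, ℝ).prod (𝓘(ℝ, ℝ).prod 𝓘(ℝ, V))) 𝓘(ℝ, V) ∞
        (fun q : ℝ × ℝ × M => φ q.1 q.2.1 q.2.2) →
      (∀ x, (∀ i, ∀ z ∈ D i, Metric.ball z r ⊆ D i → p i z ≠ x) →
        (x ∈ Crit 𝓘(ℝ, V) K → HessNondeg 𝓘(ℝ, V) K x) ∧
          ∀ t, PoissonZero (om 0) K (H 0 t) x) →
      (∀ i, ∃ c : ℝ, ∀ z ∈ D i, ¬ Metric.ball z r ⊆ D i →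
        (∀ t, H 0 t (p i z) = K (p i z)) ∧
          ∀ k ≤ 2, ‖iteratedFDeriv ℝ k (fun w => K (p i w) - c) z‖ ≤ δ) →
      StableMorseNumber V M ≤ (Fix0 (φ 1)).encard :=
  main om hom b D Λ p hp hdisj hr

end Vale.Agent.Results.P265.Localized
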